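import Mathlib

/-!
# From a recursively enumerable predicate to a finite Post-Turing machine
-/

namespace Vale.Agent.P113.H554

open Turing

theorem exists_code_of_rePred {α : Type*} [Primcodable α] (P : α → Prop) (hP : REPred P) :
    ∃ c : ToPartrec.Code, ∀ a : α, (c.eval [Encodable.encode a]).Dom ↔ P a := by
  have h1 : Nat.Partrec (fun n => Part.bind (Encodable.decode (α := α) n : Part α)
      fun a => (Part.assert (P a) fun _ => Part.some ()).map Encodable.encode) := hP
  have h2 := Nat.Partrec'.part_iff₁.2 (Partrec.nat_iff.2 h1)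
  obtain ⟨c, hc⟩ := ToPartrec.Code.exists_code h2
  refine ⟨c, fun a => ?_⟩
  have h3 := hc ⟨[Encodable.encode a], rfl⟩
  have h4 : c.eval [Encodable.encode a] = _ := h3
  rw [h4]
  simp [List.Vector.head]
  simp [Part.assert]

instance instFiniteK' : Finite PartrecToTM2.K' := by
  refine Finite.of_injective (β := Bool × Bool)
    (fun k => match k with
      | .main => (false, false)
      | .rev => (false, true)
      | .aux => (true, false)
      | .stack => (true, true)) ?_
  intro a b h
  cases a <;> cases b <;> simp_all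

/-- The tape alphabet of the simulating one-tape machine. -/
abbrev Gam : Type := TM2to1.Γ' PartrecToTM2.K' (fun _ => PartrecToTM2.Γ')

instance instFiniteGam : Finite Gam := by
  unfold Gam TM2to1.Γ'
  infer_instance

/-- The tape letter which stores `x` on the main stack. -/
def letter (b : Bool) (x : PartrecToTM2.Γ') : Gam :=
  (b, Function.update (fun _ => none) PartrecToTM2.K'.main (some x))

theorem trInit_eq (n : ℕ) :
    TM2to1.trInit (Γ := fun _ => PartrecToTM2.Γ') PartrecToTM2.K'.main (PartrecToTM2.trList [n]) =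
      letter true .cons :: ((PartrecToTM2.trNat n).map (letter false)).reverse := by
  rw [← List.map_reverse]
  have h : (PartrecToTM2.trList [n]).reverse =
      PartrecToTM2.Γ'.cons :: (PartrecToTM2.trNat n).reverse := by
    simp
  unfold TM2to1.trInit
  rw [h]
  rfl

/-- the little-endian word of binary digits of a number, with letters `c0` and `c1` -/
def bitWord {β : Type*} (c0 c1 : β) (n : ℕ) : List β :=
  (Nat.bits n).map (fun b => cond b c1 c0)

theorem trPosNum_ne (p : PosNum) : PartrecToTM2.trPosNum p ≠ [] := by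
  cases p <;> simp [PartrecToTM2.trPosNum]

theorem trNum_bit1 (k : Num) :
    PartrecToTM2.trNum (Num.bit1 k) = .bit1 :: PartrecToTM2.trNum k := by
  cases k <;> rfl

theorem trNum_bit0 (k : Num) (hk : k ≠ 0) :
    PartrecToTM2.trNum (Num.bit0 k) = .bit0 :: PartrecToTM2.trNum k := by
  cases k with
  | zero => exact absurd rfl hk
  | pos p => rfl

theorem trNat_eq (n : ℕ) : PartrecToTM2.trNat n = bitWord .bit0 .bit1 n := by
  induction n using Nat.binaryRec' with
  | zero => simp [bitWord]
  | bit b n h ih =>
    unfold PartrecToTM2.trNat at ih ⊢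
    have h1 : ((Nat.bit b n : ℕ) : Num) = cond b (Num.bit1 (n : Num)) (Num.bit0 (n : Num)) := by
      rw [← Num.ofNat'_eq, Num.ofNat'_bit, Num.ofNat'_eq]
      cases b <;> rfl
    rw [h1, bitWord, Nat.bits_append_bit n b h]
    cases b with
    | true =>
      rw [cond_true, trNum_bit1, ih]
      rfl
    | false =>
      have hn : (n : Num) ≠ 0 := by
        intro h0
        have : n = 0 := by exact_mod_cast h0
        exact absurd (h this) (by simp)
      rw [cond_false, trNum_bit0 _ hn, ih]
      rfl

theorem bitWord_step {β : Type*} (c0 c1 : β) (n : ℕ) (hn : n ≠ 0) :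
    bitWord c0 c1 n = (if n % 2 = 1 then c1 else c0) :: bitWord c0 c1 (n / 2) := by
  have h1 : Nat.bit (decide (n % 2 = 1)) (n / 2) = n := by
    rw [Nat.bit_val]
    rcases Nat.mod_two_eq_zero_or_one n with h | h <;> simp [h] <;> omega
  have h2 : n / 2 = 0 → decide (n % 2 = 1) = true := by
    intro h
    have : n = 1 := by omega
    subst this
    rfl
  conv_lhs => rw [← h1]
  rw [bitWord, Nat.bits_append_bit _ _ h2]
  rcases Nat.mod_two_eq_zero_or_one n with h | h <;> simp [h, bitWord]

theorem primrec_bitWord {β : Type*} [Primcodable β] (c0 c1 : β) :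
    Primrec (bitWord c0 c1) := by
  have key : Primrec₂ (fun (_ : Unit) (n : ℕ) => bitWord c0 c1 n) := by
    refine Primrec.nat_strong_rec (fun (_ : Unit) (n : ℕ) => bitWord c0 c1 n)
      (g := fun _ l => if l.length = 0 then some [] else
        some ((if l.length % 2 = 1 then c1 else c0) :: (l[l.length / 2]?).getD [])) ?_ ?_
    · have hlen : Primrec (fun p : Unit × List (List β) => p.2.length) :=
        Primrec.list_length.comp Primrec.snd
      refine Primrec.ite (Primrec.eq.comp hlen (Primrec.const 0)) (Primrec.const _) ?_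
      refine Primrec.option_some.comp (Primrec.list_cons.comp ?_ ?_)
      · exact Primrec.ite (Primrec.eq.comp (Primrec.nat_mod.comp hlen (Primrec.const 2))
          (Primrec.const 1)) (Primrec.const _) (Primrec.const _)
      · exact Primrec.option_getD.comp (Primrec.list_getElem?.comp Primrec.snd
          (Primrec.nat_div.comp hlen (Primrec.const 2))) (Primrec.const _)
    · intro _ n
      by_cases hn : n = 0
      · subst hn
        simp [bitWord]
      · simp only [List.length_map, List.length_range, hn, if_false]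
        rw [bitWord_step c0 c1 n hn]
        have : n / 2 < n := Nat.div_lt_self (Nat.pos_of_ne_zero hn) (by norm_num)
        simp [this]
  exact key.comp (Primrec.const ()) Primrec.id

/-- the machine labels reachable for the code `c`, as an inhabited type -/
theorem tm0_dom_iff (c : ToPartrec.Code) (n : ℕ) :
    letI : Inhabited PartrecToTM2.Λ' := ⟨PartrecToTM2.trNormal c PartrecToTM2.Cont'.halt⟩
    (TM0.eval (TM1to0.tr (TM2to1.tr PartrecToTM2.tr))
      (TM2to1.trInit (Γ := fun _ => PartrecToTM2.Γ') PartrecToTM2.K'.main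
        (PartrecToTM2.trList [n]))).Dom ↔ (c.eval [n]).Dom := by
  let _ : Inhabited PartrecToTM2.Λ' := ⟨PartrecToTM2.trNormal c PartrecToTM2.Cont'.halt⟩
  have h1 := TM1to0.tr_eval (TM2to1.tr PartrecToTM2.tr)
    (TM2to1.trInit (Γ := fun _ => PartrecToTM2.Γ') PartrecToTM2.K'.main
        (PartrecToTM2.trList [n]))
  have h2 := TM2to1.tr_eval_dom PartrecToTM2.tr PartrecToTM2.K'.main (PartrecToTM2.trList [n])
  have h3 := PartrecToTM2.tr_eval c [n]
  show (TM0.eval (TM1to0.tr (TM2to1.tr PartrecToTM2.tr)) _).Dom ↔ _
  rw [h1, h2]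
  have h4 : (TM2.init PartrecToTM2.K'.main (PartrecToTM2.trList [n]) :
      TM2.Cfg (fun _ : PartrecToTM2.K' => PartrecToTM2.Γ') PartrecToTM2.Λ'
        (Option PartrecToTM2.Γ')) = PartrecToTM2.init c [n] := by
    unfold TM2.init PartrecToTM2.init
    congr 1
    funext k
    cases k <;> rfl
  unfold TM2.eval
  rw [h4, h3]
  exact Iff.rfl

/-- A one-tape machine with finitely supported labels can be replaced by one whose label type is
finite. -/
theorem restrict_finite {Γ Λ : Type} [Inhabited Γ] [Inhabited Λ] (M : TM0.Machine Γ Λ)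
    (S : Finset Λ) (hS : TM0.Supports M (S : Set Λ)) :
    ∃ M' : @TM0.Machine Γ {q // q ∈ S} ⟨⟨default, hS.1⟩⟩,
      ∀ l : List Γ, (@TM0.eval Γ {q // q ∈ S} ⟨⟨default, hS.1⟩⟩ _ M' l).Dom ↔
        (TM0.eval M l).Dom := by
  classical
  let i1 : Inhabited {q // q ∈ S} := ⟨⟨default, hS.1⟩⟩
  let g₁ : PointedMap Λ {q // q ∈ S} :=
    ⟨fun q => if h : q ∈ S then ⟨q, h⟩ else default, by
      have h : (default : Λ) ∈ S := hS.1
      simp only [h, dif_pos]
      rfl⟩
  let g₂ : {q // q ∈ S} → Λ := Subtype.val
  let f : PointedMap Γ Γ := ⟨id, rfl⟩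
  have hf : Function.RightInverse f f := fun _ => rfl
  have hg : ∀ q ∈ (S : Set Λ), g₂ (g₁ q) = q := by
    intro q hq
    have h : q ∈ S := hq
    show (if h : q ∈ S then (⟨q, h⟩ : {q // q ∈ S}) else default).1 = q
    rw [dif_pos h]
  refine ⟨TM0.Machine.map M f f g₁ g₂, fun l => ?_⟩
  have hr := TM0.Machine.map_respects M f f g₁ g₂ hS hf hg
  have hd := StateTransition.tr_eval_dom hr (a₁ := TM0.init l) (a₂ := TM0.init l) ⟨hS.1, by
    have := TM0.map_init f g₁ l
    have hl : l.map f = l := List.map_id l
    rw [hl] at this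
    exact this⟩
  exact hd

/-- Every recursively enumerable predicate is the halting set of one finite one-tape machine, the
input being the fixed letter `h0` followed by the reversed binary word of the code number. -/
theorem exists_tm0 {α : Type*} [Primcodable α] (P : α → Prop) (hP : REPred P) :
    ∃ (Γ Λ : Type) (_ : Inhabited Γ) (_ : Inhabited Λ) (_ : Finite Γ) (_ : Finite Λ)
      (M : TM0.Machine Γ Λ) (h0 c0 c1 : Γ), ∀ a,
        (TM0.eval M (h0 :: (bitWord c0 c1 (Encodable.encode a)).reverse)).Dom ↔ P a := by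
  obtain ⟨c, hc⟩ := exists_code_of_rePred P hP
  let _ : Inhabited PartrecToTM2.Λ' := ⟨PartrecToTM2.trNormal c PartrecToTM2.Cont'.halt⟩
  let _ : Fintype Gam := Fintype.ofFinite _
  have hs := TM1to0.tr_supports (TM2to1.tr PartrecToTM2.tr)
    (TM2to1.tr_supports PartrecToTM2.tr (PartrecToTM2.tr_supports c PartrecToTM2.Cont'.halt))
  obtain ⟨M', hM'⟩ := restrict_finite _ _ hs
  refine ⟨Gam, _, inferInstance, ⟨⟨default, hs.1⟩⟩, inferInstance, ?_, M', letter true .cons,
    letter false .bit0, letter false .bit1, fun a => ?_⟩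
  · exact Finite.of_fintype _
  · rw [hM', ← hc a, ← tm0_dom_iff c, trInit_eq, trNat_eq]
    simp only [bitWord, List.map_map]
    have : (fun b => cond b (letter false .bit1) (letter false .bit0)) =
        (letter false ∘ fun b => cond b PartrecToTM2.Γ'.bit1 PartrecToTM2.Γ'.bit0) := by
      funext b
      cases b <;> rfl
    rw [this]

end Vale.Agent.P113.H554
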