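import Mathlib

/-!
# Simulation of a finite one-tape machine by a queue automaton

The tape `L.reverse ++ [h] ++ R` with the head on `h` and the machine in state `q` is represented by
the state `C q h` and the queue `# R | L $`.
-/

namespace Vale.Agent.P113.H554

open Turing

/-- Letters of the queue. -/
inductive Sym (Γ : Type) : Type
  | tape (a : Γ) : Sym Γ
  | hash : Sym Γ
  | bar : Sym Γ
  | dollar : Sym Γ
  | star : Sym Γ

/-- States of the queue automaton. -/
inductive St (Q Γ : Type) : Type
  | C (q : Q) (h : Γ) : St Q Γ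
  | C' (q : Q) (h : Γ) : St Q Γ
  | A (q : Q) (h : Γ) : St Q Γ
  | A2 (q : Q) (h r : Γ) : St Q Γ
  | B (q : Q) : St Q Γ
  | B2 (q : Q) : St Q Γ
  | halt : St Q Γ

instance {Γ : Type} [Finite Γ] : Finite (Sym Γ) := by
  refine Finite.of_injective (β := Γ ⊕ Fin 4)
    (fun k => match k with
      | .tape a => Sum.inl a
      | .hash => Sum.inr 0
      | .bar => Sum.inr 1
      | .dollar => Sum.inr 2
      | .star => Sum.inr 3) ?_
  intro a b h
  cases a <;> cases b <;> simp_all

instance {Q Γ : Type} [Finite Q] [Finite Γ] : Finite (St Q Γ) := by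
  refine Finite.of_injective (β := ((Q × Γ) ⊕ (Q × Γ)) ⊕ ((Q × Γ) ⊕ (Q × Γ × Γ)) ⊕ (Q ⊕ Q) ⊕ Unit)
    (fun k => match k with
      | .C q h => Sum.inl (Sum.inl (q, h))
      | .C' q h => Sum.inl (Sum.inr (q, h))
      | .A q h => Sum.inr (Sum.inl (Sum.inl (q, h)))
      | .A2 q h r => Sum.inr (Sum.inl (Sum.inr (q, h, r)))
      | .B q => Sum.inr (Sum.inr (Sum.inl (Sum.inl q)))
      | .B2 q => Sum.inr (Sum.inr (Sum.inl (Sum.inr q)))
      | .halt => Sum.inr (Sum.inr (Sum.inr ()))) ?_
  intro a b h
  cases a <;> cases b <;> simp_all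

variable {Q Γ : Type} [Inhabited Q] [Inhabited Γ]

/-- The table of the queue automaton simulating the one-tape machine `M`. -/
def aut (M : TM0.Machine Γ Q) : St Q Γ → Sym Γ → St Q Γ × List (Sym Γ)
  | .halt, _ => (.halt, [])
  | .C q h, .star => (.C q h, [])
  | .C q h, .hash =>
      match M q h with
      | none => (.halt, [])
      | some (q', .write a) => (.C q' a, [.hash])
      | some (q', .move .right) => (.A q' h, [.hash])
      | some (q', .move .left) => (.B q', [.hash, .tape h])
  | .C q h, .tape a => (.C q h, [.tape a])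
  | .C q h, .bar => (.C q h, [.bar])
  | .C q h, .dollar => (.C q h, [.dollar])
  | .C' q h, .star => (.C' q h, [])
  | .C' q h, .tape a => (.C q h, [.tape a])
  | .C' q h, .hash => (.C q h, [.hash])
  | .C' q h, .bar => (.C q h, [.bar])
  | .C' q h, .dollar => (.C q h, [.dollar])
  | .A q h, .star => (.A q h, [])
  | .A q h, .tape r => (.A2 q h r, [])
  | .A q h, .bar => (.C' q default, [.bar, .tape h])
  | .A q h, .hash => (.A q h, [.hash])
  | .A q h, .dollar => (.A q h, [.dollar])
  | .A2 q h r, .star => (.A2 q h r, [])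
  | .A2 q h r, .tape x => (.A2 q h r, [.tape x])
  | .A2 q h r, .bar => (.C' q r, [.bar, .tape h])
  | .A2 q h r, .hash => (.A2 q h r, [.hash])
  | .A2 q h r, .dollar => (.A2 q h r, [.dollar])
  | .B q, .star => (.B q, [])
  | .B q, .tape x => (.B q, [.tape x])
  | .B q, .bar => (.B2 q, [.bar])
  | .B q, .hash => (.B q, [.hash])
  | .B q, .dollar => (.B q, [.dollar])
  | .B2 q, .star => (.B2 q, [])
  | .B2 q, .tape t => (.C q t, [])
  | .B2 q, .dollar => (.C q default, [.dollar])
  | .B2 q, .bar => (.B2 q, [.bar])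
  | .B2 q, .hash => (.B2 q, [.hash])

/-- One step of the queue automaton. -/
def astep (M : TM0.Machine Γ Q) : St Q Γ × List (Sym Γ) → St Q Γ × List (Sym Γ)
  | (s, x :: w) => ((aut M s x).1, w ++ (aut M s x).2)
  | (s, []) => (s, [])

theorem aut_star (M : TM0.Machine Γ Q) (s : St Q Γ) : aut M s .star = (s, []) := by
  cases s <;> rfl

theorem aut_len_B (M : TM0.Machine Γ Q) (q : Q) (b : Sym Γ) : (aut M (.B q) b).2.length ≤ 1 := by
  cases b <;> simp [aut]

theorem aut_len_C' (M : TM0.Machine Γ Q) (q : Q) (h : Γ) (b : Sym Γ) :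
    (aut M (.C' q h) b).2.length ≤ 1 := by
  cases b <;> simp [aut]

theorem aut_len (M : TM0.Machine Γ Q) (s : St Q Γ) (a : Sym Γ) : (aut M s a).2.length ≤ 1 ∨
    ((aut M s a).2.length ≤ 2 ∧ ((∃ q, (aut M s a).1 = .B q) ∨ ∃ q h, (aut M s a).1 = .C' q h)) := by
  cases s with
  | C q h =>
    cases a with
    | hash =>
      simp only [aut]
      rcases hM : M q h with _ | ⟨q', (d | a)⟩
      · simp
      · cases d <;> simp
      · simp
    | _ => simp [aut]
  | _ => cases a <;> simp [aut]

theorem aut_bound (M : TM0.Machine Γ Q) (s : St Q Γ) (a b : Sym Γ) :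
    ((aut M s a).2 ++ (aut M (aut M s a).1 b).2).length ≤ 3 := by
  rw [List.length_append]
  have h2 : (aut M (aut M s a).1 b).2.length ≤ 2 := by
    rcases aut_len M (aut M s a).1 b with h | h
    · omega
    · exact h.1
  rcases aut_len M s a with h | ⟨h, ⟨q, hq⟩ | ⟨q, h', hq⟩⟩
  · omega
  · have := aut_len_B M q b
    rw [← hq] at this
    omega
  · have := aut_len_C' M q h' b
    rw [← hq] at this
    omega

/-- The automaton never writes the padding letter. -/
theorem aut_no_star (M : TM0.Machine Γ Q) (s : St Q Γ) (a : Sym Γ) : Sym.star ∉ (aut M s a).2 := by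
  cases s with
  | C q h =>
    cases a with
    | hash =>
      simp only [aut]
      rcases hM : M q h with _ | ⟨q', (d | a)⟩
      · simp
      · cases d <;> simp
      · simp
    | _ => simp [aut]
  | _ => cases a <;> simp [aut]

/-- The marker `#` is never lost before halting. -/
theorem aut_hash (M : TM0.Machine Γ Q) (s : St Q Γ) :
    (aut M s .hash).1 = .halt ∨ Sym.hash ∈ (aut M s .hash).2 := by
  cases s with
  | C q h =>
    simp only [aut]
    rcases hM : M q h with _ | ⟨q', (d | a)⟩
    · simp
    · cases d <;> simp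
    · simp
  | _ => simp [aut]

/-- Every step of the automaton keeps the halting state. -/
theorem astep_halt (M : TM0.Machine Γ Q) (c : St Q Γ × List (Sym Γ)) (hc : c.1 = .halt) :
    (astep M c).1 = .halt := by
  rcases c with ⟨s, _ | ⟨x, w⟩⟩
  · exact hc
  · simp only at hc
    subst hc
    rfl

theorem astep_iterate_halt (M : TM0.Machine Γ Q) (c : St Q Γ × List (Sym Γ)) (hc : c.1 = .halt)
    (n : ℕ) : ((astep M)^[n] c).1 = .halt := by
  induction n with
  | zero => exact hc
  | succ n ih =>
    rw [Function.iterate_succ_apply']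
    exact astep_halt M _ ih

theorem astep_halt_mono (M : TM0.Machine Γ Q) (c : St Q Γ × List (Sym Γ)) {n n' : ℕ}
    (h : n ≤ n') (hc : ((astep M)^[n] c).1 = .halt) : ((astep M)^[n'] c).1 = .halt := by
  obtain ⟨k, rfl⟩ := Nat.exists_eq_add_of_le h
  rw [Nat.add_comm, Function.iterate_add_apply]
  exact astep_iterate_halt M _ hc k

/-- The step function of the automaton which stops just before halting. -/
def pstep (M : TM0.Machine Γ Q) (c : St Q Γ × List (Sym Γ)) :
    Option (St Q Γ × List (Sym Γ)) :=
  match (astep M c).1 with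
  | .halt => none
  | _ => some (astep M c)

theorem pstep_eq_none {M : TM0.Machine Γ Q} {c : St Q Γ × List (Sym Γ)}
    (h : (astep M c).1 = .halt) : pstep M c = none := by
  unfold pstep
  rw [h]

theorem pstep_eq_some {M : TM0.Machine Γ Q} {c : St Q Γ × List (Sym Γ)}
    (h : (astep M c).1 ≠ .halt) : pstep M c = some (astep M c) := by
  unfold pstep
  split
  · next h' => exact absurd h' h
  · rfl

theorem reaches₁_of_iterate (M : TM0.Machine Γ Q) (n : ℕ) (c : St Q Γ × List (Sym Γ))
    (h : ((astep M)^[n + 1] c).1 ≠ .halt) :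
    StateTransition.Reaches₁ (pstep M) c ((astep M)^[n + 1] c) := by
  induction n with
  | zero =>
    exact Relation.TransGen.single (pstep_eq_some h)
  | succ n ih =>
    have h1 : ((astep M)^[n + 1] c).1 ≠ .halt := fun h' =>
      h (astep_halt_mono M c (Nat.le_succ _) h')
    refine (ih h1).tail ?_
    have h3 : (astep M)^[n + 1 + 1] c = astep M ((astep M)^[n + 1] c) :=
      Function.iterate_succ_apply' _ _ _
    rw [h3] at h ⊢
    exact pstep_eq_some h

/-- The partial evaluation stops if and only if the automaton reaches the halting state. -/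
theorem pstep_dom_iff (M : TM0.Machine Γ Q) (c : St Q Γ × List (Sym Γ)) (hc : c.1 ≠ .halt) :
    (StateTransition.eval (pstep M) c).Dom ↔ ∃ n, ((astep M)^[n] c).1 = .halt := by
  constructor
  · intro h
    obtain ⟨b, hb⟩ := Part.dom_iff_mem.1 h
    obtain ⟨hr, hn⟩ := StateTransition.mem_eval.1 hb
    have key : ∃ n, (astep M)^[n] c = b := by
      clear hn hb
      induction hr with
      | refl => exact ⟨0, rfl⟩
      | @tail b' c' _ hbc ih =>
        obtain ⟨n, hn⟩ := ih
        refine ⟨n + 1, ?_⟩
        rw [Function.iterate_succ_apply', hn]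
        by_cases hh : (astep M b').1 = .halt
        · rw [pstep_eq_none hh] at hbc
          cases hbc
        · rw [pstep_eq_some hh] at hbc
          exact Option.some.inj hbc
    obtain ⟨n, hn'⟩ := key
    refine ⟨n + 1, ?_⟩
    rw [Function.iterate_succ_apply', hn']
    by_contra hh
    rw [pstep_eq_some hh] at hn
    cases hn
  · rintro ⟨n, hn⟩
    by_contra hdom
    have key : ∀ k, ((astep M)^[k] c).1 ≠ .halt ∧
        StateTransition.Reaches (pstep M) c ((astep M)^[k] c) := by
      intro k
      induction k with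
      | zero => exact ⟨hc, Relation.ReflTransGen.refl⟩
      | succ k ih =>
        have h1 : ((astep M)^[k + 1] c).1 ≠ .halt := by
          intro hh
          apply hdom
          refine Part.dom_iff_mem.2 ⟨(astep M)^[k] c, StateTransition.mem_eval.2 ⟨ih.2, ?_⟩⟩
          apply pstep_eq_none
          rw [← Function.iterate_succ_apply' (astep M) k c]
          exact hh
        exact ⟨h1, (reaches₁_of_iterate M k c h1).to_reflTransGen⟩
    exact (key n).1 hn

end Vale.Agent.P113.H554
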