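import Vale.Agent.P113.H554.Queue

/-!
# The queue automaton simulates the one-tape machine
-/

namespace Vale.Agent.P113.H554

open Turing

variable {Q Γ : Type} [Inhabited Q] [Inhabited Γ]

/-- The queue automaton gets from one configuration to another one. -/
def AReach (M : TM0.Machine Γ Q) (c c' : St Q Γ × List (Sym Γ)) : Prop :=
  ∃ n, (astep M)^[n] c = c'

theorem AReach.refl (M : TM0.Machine Γ Q) (c : St Q Γ × List (Sym Γ)) : AReach M c c := ⟨0, rfl⟩

theorem AReach.trans {M : TM0.Machine Γ Q} {c c' c'' : St Q Γ × List (Sym Γ)}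
    (h : AReach M c c') (h' : AReach M c' c'') : AReach M c c'' := by
  obtain ⟨n, rfl⟩ := h
  obtain ⟨m, rfl⟩ := h'
  exact ⟨m + n, Function.iterate_add_apply _ _ _ _⟩

theorem AReach.head {M : TM0.Machine Γ Q} {c c' c'' : St Q Γ × List (Sym Γ)}
    (h : astep M c = c') (h' : AReach M c' c'') : AReach M c c'' :=
  AReach.trans ⟨1, h⟩ h'

theorem AReach.copy {M : TM0.Machine Γ Q} (s : St Q Γ) (u v : List (Sym Γ))
    (hu : ∀ x ∈ u, aut M s x = (s, [x])) : AReach M (s, u ++ v) (s, v ++ u) := by
  induction u generalizing v with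
  | nil => simpa using AReach.refl M (s, v)
  | cons x u ih =>
    have h1 : astep M (s, (x :: u) ++ v) = (s, u ++ (v ++ [x])) := by
      show ((aut M s x).1, (u ++ v) ++ (aut M s x).2) = _
      rw [hu x (by simp)]
      simp
    refine AReach.head h1 ?_
    have h2 := ih (v ++ [x]) (fun y hy => hu y (by simp [hy]))
    simpa using h2

/-- The queue configuration of a configuration of the one-tape machine. -/
def canon (q : Q) (h : Γ) (L R : List Γ) : St Q Γ × List (Sym Γ) :=
  (.C q h, .hash :: (R.map .tape ++ .bar :: (L.map .tape ++ [.dollar])))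

/-- State `C` copies words without marker `#`. -/
theorem reach_C (M : TM0.Machine Γ Q) (q : Q) (h : Γ) (u v : List (Sym Γ))
    (hu : Sym.hash ∉ u) (hu' : Sym.star ∉ u) : AReach M (.C q h, u ++ v) (.C q h, v ++ u) := by
  refine AReach.copy _ _ _ fun x hx => ?_
  cases x with
  | hash => exact absurd hx hu
  | star => exact absurd hx hu'
  | _ => rfl

theorem reach_C' (M : TM0.Machine Γ Q) (q : Q) (h : Γ) (u v : List (Sym Γ)) (hne : u ≠ [])
    (hu : Sym.hash ∉ u) (hu' : Sym.star ∉ u) : AReach M (.C' q h, u ++ v) (.C q h, v ++ u) := by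
  cases u with
  | nil => exact absurd rfl hne
  | cons x u =>
    have h1 : astep M (.C' q h, (x :: u) ++ v) = (.C q h, u ++ (v ++ [x])) := by
      show ((aut M (.C' q h) x).1, (u ++ v) ++ (aut M (.C' q h) x).2) = _
      have : aut M (.C' q h) x = (.C q h, [x]) := by
        cases x with
        | star => exact absurd (List.mem_cons_self) hu'
        | _ => rfl
      rw [this]
      simp
    refine AReach.head h1 ?_
    have h2 := reach_C M q h u (v ++ [x]) (fun hx => hu (by simp [hx]))
      (fun hx => hu' (by simp [hx]))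
    simpa using h2

theorem reach_A2 (M : TM0.Machine Γ Q) (q : Q) (h r : Γ) (R : List Γ) (v : List (Sym Γ)) :
    AReach M (.A2 q h r, R.map .tape ++ v) (.A2 q h r, v ++ R.map .tape) := by
  refine AReach.copy _ _ _ fun x hx => ?_
  simp only [List.mem_map] at hx
  obtain ⟨a, _, rfl⟩ := hx
  rfl

theorem reach_B (M : TM0.Machine Γ Q) (q : Q) (R : List Γ) (v : List (Sym Γ)) :
    AReach M (.B q, R.map .tape ++ v) (.B q, v ++ R.map .tape) := by
  refine AReach.copy _ _ _ fun x hx => ?_
  simp only [List.mem_map] at hx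
  obtain ⟨a, _, rfl⟩ := hx
  rfl

theorem step_write (M : TM0.Machine Γ Q) (q q' : Q) (h a : Γ) (L R : List Γ)
    (hM : M q h = some (q', .write a)) : AReach M (astep M (canon q h L R)) (canon q' a L R) := by
  have h1 : astep M (canon q h L R) =
      (St.C q' a, (R.map Sym.tape ++ Sym.bar :: (L.map Sym.tape ++ [Sym.dollar])) ++ [Sym.hash]) := by
    simp [astep, canon, aut, hM]
  rw [h1]
  exact reach_C M q' a _ _ (by simp) (by simp)

theorem step_right (M : TM0.Machine Γ Q) (q q' : Q) (h : Γ) (L R : List Γ)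
    (hM : M q h = some (q', .move .right)) :
    AReach M (astep M (canon q h L R)) (canon q' R.headI (h :: L) R.tail) := by
  have h1 : astep M (canon q h L R) =
      (St.A q' h, (R.map Sym.tape ++ Sym.bar :: (L.map Sym.tape ++ [Sym.dollar])) ++ [Sym.hash]) := by
    simp [astep, canon, aut, hM]
  rw [h1]
  cases R with
  | nil =>
    refine AReach.head (c' := (St.C' q' default,
      (L.map Sym.tape ++ [Sym.dollar]) ++ ([Sym.hash] ++ [Sym.bar, Sym.tape h]))) ?_ ?_
    · simp [astep, aut]
    · refine (reach_C' M q' default _ _ (by simp) (by simp) (by simp)).trans ?_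
      have : (([Sym.hash] ++ [Sym.bar, Sym.tape h]) ++ (L.map Sym.tape ++ [Sym.dollar]) : List (Sym Γ)) =
          Sym.hash :: (([] : List Γ).map Sym.tape ++ Sym.bar :: ((h :: L).map Sym.tape ++ [Sym.dollar])) := by
        simp
      rw [this]
      exact AReach.refl M _
  | cons r R =>
    refine AReach.head (c' := (St.A2 q' h r,
      R.map Sym.tape ++ (Sym.bar :: (L.map Sym.tape ++ [Sym.dollar] ++ [Sym.hash])))) ?_ ?_
    · simp [astep, aut]
    refine (reach_A2 M q' h r R _).trans ?_
    refine AReach.head (c' := (St.C' q' r,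
      (L.map Sym.tape ++ [Sym.dollar]) ++ ([Sym.hash] ++ R.map Sym.tape ++ [Sym.bar, Sym.tape h]))) ?_ ?_
    · simp [astep, aut]
    · refine (reach_C' M q' r _ _ (by simp) (by simp) (by simp)).trans ?_
      have : (([Sym.hash] ++ R.map Sym.tape ++ [Sym.bar, Sym.tape h]) ++ (L.map Sym.tape ++ [Sym.dollar]) :
          List (Sym Γ)) = Sym.hash :: (R.map Sym.tape ++ Sym.bar :: ((h :: L).map Sym.tape ++ [Sym.dollar])) := by
        simp
      rw [this]
      exact AReach.refl M _

theorem step_left (M : TM0.Machine Γ Q) (q q' : Q) (h : Γ) (L R : List Γ)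
    (hM : M q h = some (q', .move .left)) :
    AReach M (astep M (canon q h L R)) (canon q' L.headI L.tail (h :: R)) := by
  have h1 : astep M (canon q h L R) =
      (St.B q', R.map Sym.tape ++ (Sym.bar :: (L.map Sym.tape ++ [Sym.dollar]) ++ [Sym.hash, Sym.tape h])) := by
    simp [astep, canon, aut, hM]
  rw [h1]
  refine (reach_B M q' R _).trans ?_
  refine AReach.head (c' := (St.B2 q',
      L.map Sym.tape ++ ([Sym.dollar] ++ ([Sym.hash, Sym.tape h] ++ R.map Sym.tape ++ [Sym.bar])))) ?_ ?_
  · simp [astep, aut]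
  cases L with
  | nil =>
    refine AReach.head (c' := (St.C q' default,
      [Sym.hash, Sym.tape h] ++ R.map Sym.tape ++ [Sym.bar] ++ [Sym.dollar])) ?_ ?_
    · simp [astep, aut]
    · have : ([Sym.hash, Sym.tape h] ++ R.map Sym.tape ++ [Sym.bar] ++ [Sym.dollar] : List (Sym Γ)) =
          Sym.hash :: ((h :: R).map Sym.tape ++ Sym.bar :: (([] : List Γ).map Sym.tape ++ [Sym.dollar])) := by
        simp
      rw [this]
      exact AReach.refl M _
  | cons t L =>
    refine AReach.head (c' := (St.C q' t,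
      (L.map Sym.tape ++ [Sym.dollar]) ++ ([Sym.hash, Sym.tape h] ++ R.map Sym.tape ++ [Sym.bar]))) ?_ ?_
    · simp [astep, aut]
    · refine (reach_C M q' t _ _ (by simp) (by simp)).trans ?_
      have : (([Sym.hash, Sym.tape h] ++ R.map Sym.tape ++ [Sym.bar]) ++ (L.map Sym.tape ++ [Sym.dollar]) :
          List (Sym Γ)) = Sym.hash :: ((h :: R).map Sym.tape ++ Sym.bar :: (L.map Sym.tape ++ [Sym.dollar])) := by
        simp
      rw [this]
      exact AReach.refl M _

/-- Correspondence of configurations. -/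
def CRel (c : TM0.Cfg Γ Q) (c' : St Q Γ × List (Sym Γ)) : Prop :=
  ∃ (h : Γ) (L R : List Γ), c.Tape = ⟨h, ListBlank.mk L, ListBlank.mk R⟩ ∧ c' = canon c.q h L R

theorem respects (M : TM0.Machine Γ Q) :
    StateTransition.Respects (TM0.step M) (pstep M) CRel := by
  rintro ⟨q, T⟩ c' ⟨h, L, R, hT, rfl⟩
  simp only at hT
  subst hT
  simp only
  have key : ∀ c'', AReach M (astep M (canon q h L R)) c'' → c''.1 ≠ .halt →
      StateTransition.Reaches₁ (pstep M) (canon q h L R) c'' := by
    rintro c'' ⟨n, rfl⟩ hne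
    have : (astep M)^[n] (astep M (canon q h L R)) = (astep M)^[n + 1] (canon q h L R) := rfl
    rw [this] at hne ⊢
    exact reaches₁_of_iterate M n _ hne
  rcases hM : M q h with _ | ⟨q', (d | a)⟩
  · have : TM0.step M ⟨q, ⟨h, ListBlank.mk L, ListBlank.mk R⟩⟩ = none := by
      simp [TM0.step, hM]
    rw [this]
    simp only
    apply pstep_eq_none
    simp [astep, canon, aut, hM]
  · cases d with
    | left =>
      have : TM0.step M ⟨q, ⟨h, ListBlank.mk L, ListBlank.mk R⟩⟩ =
          some ⟨q', ⟨L.headI, ListBlank.mk L.tail, ListBlank.mk (h :: R)⟩⟩ := by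
        simp [TM0.step, hM, Tape.move]
      rw [this]
      simp only
      refine ⟨canon q' L.headI L.tail (h :: R), ⟨_, _, _, rfl, rfl⟩, ?_⟩
      exact key _ (step_left M q q' h L R hM) (by simp [canon])
    | right =>
      have : TM0.step M ⟨q, ⟨h, ListBlank.mk L, ListBlank.mk R⟩⟩ =
          some ⟨q', ⟨R.headI, ListBlank.mk (h :: L), ListBlank.mk R.tail⟩⟩ := by
        simp [TM0.step, hM, Tape.move]
      rw [this]
      simp only
      refine ⟨canon q' R.headI (h :: L) R.tail, ⟨_, _, _, rfl, rfl⟩, ?_⟩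
      exact key _ (step_right M q q' h L R hM) (by simp [canon])
  · have : TM0.step M ⟨q, ⟨h, ListBlank.mk L, ListBlank.mk R⟩⟩ =
        some ⟨q', ⟨a, ListBlank.mk L, ListBlank.mk R⟩⟩ := by
      simp [TM0.step, hM, Tape.write]
    rw [this]
    simp only
    refine ⟨canon q' a L R, ⟨_, _, _, rfl, rfl⟩, ?_⟩
    exact key _ (step_write M q q' h a L R hM) (by simp [canon])

/-- The word from which the automaton starts. -/
def startWord (h : Γ) (R : List Γ) : List (Sym Γ) :=
  .tape h :: .dollar :: .hash :: (R.map .tape ++ [.bar])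

/-- The queue automaton reaches the halting state if and only if the machine halts. -/
theorem tm0_iff (M : TM0.Machine Γ Q) (h : Γ) (R : List Γ) :
    (TM0.eval M (h :: R)).Dom ↔
      ∃ n, ((astep M)^[n] (.B2 default, startWord h R)).1 = .halt := by
  have h1 : (TM0.eval M (h :: R)).Dom ↔
      (StateTransition.eval (TM0.step M) (TM0.init (h :: R))).Dom := Iff.rfl
  have h2 : CRel (TM0.init (h :: R) : TM0.Cfg Γ Q) (canon default h [] R) :=
    ⟨h, [], R, by simp [TM0.init, Tape.mk₁, Tape.mk₂, Tape.mk'], rfl⟩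
  rw [h1, ← StateTransition.tr_eval_dom (respects M) h2, pstep_dom_iff M _ (by simp [canon])]
  have h3 : (astep M)^[2] (.B2 default, startWord h R) = canon default h [] R := by
    simp [astep, startWord, aut, canon]
  constructor
  · rintro ⟨n, hn⟩
    refine ⟨n + 2, ?_⟩
    rw [Function.iterate_add_apply, h3]
    exact hn
  · rintro ⟨n, hn⟩
    refine ⟨n, ?_⟩
    have := astep_halt_mono M _ (Nat.le_add_right n 2) hn
    rw [Function.iterate_add_apply, h3] at this
    exact this

end Vale.Agent.P113.H554
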