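import Vale.Agent.P113.H554.Chain
import Vale.Agent.P113.H554.Sim
import Vale.Agent.P113.Iface

/-!
# A universal uniform queue machine
-/

set_option linter.unusedSectionVars false

namespace Vale.Agent.P113.H554

open Turing

variable {Q Γ : Type} [Inhabited Q] [Inhabited Γ]

/-- The three letters appended by the uniform queue machine. -/
def padded (M : TM0.Machine Γ Q) (s : St Q Γ) (a b : Sym Γ) : List (Sym Γ) :=
  (aut M s a).2 ++ (aut M (aut M s a).1 b).2 ++
    List.replicate (3 - ((aut M s a).2 ++ (aut M (aut M s a).1 b).2).length) .star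

theorem padded_length (M : TM0.Machine Γ Q) (s : St Q Γ) (a b : Sym Γ) :
    (padded M s a b).length = 3 := by
  have := aut_bound M s a b
  rw [padded, List.length_append, List.length_replicate]
  omega

/-- One step of the uniform queue machine, on the original alphabets. -/
def ustep (M : TM0.Machine Γ Q) : St Q Γ × List (Sym Γ) → St Q Γ × List (Sym Γ)
  | (s, a :: b :: w) => ((aut M (aut M s a).1 b).1, w ++ padded M s a b)
  | c => c

open Classical in
/-- Erasing the padding letters. -/
noncomputable def er (w : List (Sym Γ)) : List (Sym Γ) := w.filter (fun x => decide (x ≠ .star))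

theorem er_append (v w : List (Sym Γ)) : er (v ++ w) = er v ++ er w := by
  simp [er]

theorem er_nil : er ([] : List (Sym Γ)) = [] := by
  simp [er]

theorem er_cons_star (w : List (Sym Γ)) : er (.star :: w) = er w := by
  simp [er]

theorem er_cons_ne (x : Sym Γ) (hx : x ≠ .star) (w : List (Sym Γ)) : er (x :: w) = x :: er w := by
  simp [er, hx]

theorem er_replicate (n : ℕ) : er (List.replicate n (.star : Sym Γ)) = [] := by
  simp [er]

theorem er_of_no_star (w : List (Sym Γ)) (h : Sym.star ∉ w) : er w = w := by
  unfold er
  rw [List.filter_eq_self]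
  intro a ha
  simp only [decide_eq_true_eq]
  rintro rfl
  exact h ha

theorem er_padded (M : TM0.Machine Γ Q) (s : St Q Γ) (a b : Sym Γ) :
    er (padded M s a b) = (aut M s a).2 ++ (aut M (aut M s a).1 b).2 := by
  rw [padded, er_append, er_append, er_replicate, List.append_nil,
    er_of_no_star _ (aut_no_star M _ _), er_of_no_star _ (aut_no_star M _ _)]

/-- One step of the uniform queue machine performs at most two steps of the automaton, and exactly
one or two of them if one of the first two letters is not the padding letter. -/
theorem ustep_sim (M : TM0.Machine Γ Q) (s : St Q Γ) (a b : Sym Γ) (w : List (Sym Γ)) :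
    ∃ j, (a ≠ .star ∨ b ≠ .star → 1 ≤ j) ∧
      ((ustep M (s, a :: b :: w)).1, er (ustep M (s, a :: b :: w)).2) =
        (astep M)^[j] (s, er (a :: b :: w)) := by
  by_cases ha : a = .star
  · subst ha
    by_cases hb : b = .star
    · subst hb
      refine ⟨0, by simp, ?_⟩
      simp only [ustep, Function.iterate_zero, id_eq, er_cons_star, er_append, er_padded, aut_star,
        List.append_nil]
    · refine ⟨1, fun _ => le_refl _, ?_⟩
      simp only [ustep, Function.iterate_one, er_cons_star, er_append, er_padded, aut_star,
        List.nil_append, er_cons_ne b hb, astep]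
  · by_cases hb : b = .star
    · subst hb
      refine ⟨1, fun _ => le_refl _, ?_⟩
      simp only [ustep, Function.iterate_one, er_cons_star, er_append, er_padded, aut_star,
        List.append_nil, er_cons_ne a ha, astep]
    · refine ⟨2, fun _ => by omega, ?_⟩
      simp only [ustep, Function.iterate_succ, Function.iterate_zero, id_eq, Function.comp_apply,
        er_append, er_padded, er_cons_ne a ha, er_cons_ne b hb, astep, List.cons_append,
        List.append_assoc]

theorem ustep_length (M : TM0.Machine Γ Q) (s : St Q Γ) (w : List (Sym Γ)) (hw : 2 ≤ w.length) :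
    2 ≤ (ustep M (s, w)).2.length := by
  match w, hw with
  | a :: b :: w, _ =>
    show 2 ≤ (w ++ padded M s a b).length
    rw [List.length_append, padded_length]
    omega

theorem ustep_iterate_length (M : TM0.Machine Γ Q) (c : St Q Γ × List (Sym Γ))
    (hw : 2 ≤ c.2.length) (n : ℕ) : 2 ≤ ((ustep M)^[n] c).2.length := by
  induction n with
  | zero => exact hw
  | succ n ih =>
    rw [Function.iterate_succ_apply']
    exact ustep_length M _ _ ih

/-- The configuration of the uniform queue machine after `n` steps is a configuration of the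
automaton. -/
theorem ustep_iterate_sim (M : TM0.Machine Γ Q) (c : St Q Γ × List (Sym Γ))
    (hw : 2 ≤ c.2.length) (n : ℕ) :
    ∃ j, (((ustep M)^[n] c).1, er ((ustep M)^[n] c).2) = (astep M)^[j] (c.1, er c.2) := by
  induction n with
  | zero => exact ⟨0, rfl⟩
  | succ n ih =>
    obtain ⟨j, hj⟩ := ih
    have hl := ustep_iterate_length M c hw n
    rw [Function.iterate_succ_apply']
    generalize (ustep M)^[n] c = c' at hj hl
    obtain ⟨s, w⟩ := c'
    match w, hl with
    | a :: b :: w, _ =>
      obtain ⟨i, _, hi⟩ := ustep_sim M s a b w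
      refine ⟨i + j, ?_⟩
      rw [hi, Function.iterate_add_apply, ← hj]

/-- Invariant: the marker `#` is present unless the automaton has halted. -/
theorem astep_hash (M : TM0.Machine Γ Q) (c : St Q Γ × List (Sym Γ))
    (hc : c.1 = .halt ∨ Sym.hash ∈ c.2) :
    (astep M c).1 = .halt ∨ Sym.hash ∈ (astep M c).2 := by
  rcases hc with hc | hc
  · exact Or.inl (astep_halt M c hc)
  · obtain ⟨s, w⟩ := c
    cases w with
    | nil => exact absurd hc (by simp)
    | cons x w =>
      simp only [List.mem_cons] at hc
      rcases hc with rfl | hc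
      · rcases aut_hash M s with h | h
        · exact Or.inl h
        · right
          show Sym.hash ∈ w ++ (aut M s .hash).2
          exact List.mem_append_right _ h
      · right
        show Sym.hash ∈ w ++ (aut M s x).2
        exact List.mem_append_left _ hc

theorem astep_iterate_hash (M : TM0.Machine Γ Q) (c : St Q Γ × List (Sym Γ))
    (hc : c.1 = .halt ∨ Sym.hash ∈ c.2) (n : ℕ) :
    ((astep M)^[n] c).1 = .halt ∨ Sym.hash ∈ ((astep M)^[n] c).2 := by
  induction n with
  | zero => exact hc
  | succ n ih =>
    rw [Function.iterate_succ_apply']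
    exact astep_hash M _ ih

theorem mem_er {w : List (Sym Γ)} {x : Sym Γ} (h : x ∈ er w) : x ∈ w ∧ x ≠ .star := by
  unfold er at h
  rw [List.mem_filter] at h
  exact ⟨h.1, by simpa using h.2⟩

/-- The uniform queue machine makes progress. -/
theorem ustep_progress (M : TM0.Machine Γ Q) (p : ℕ) : ∀ (s : St Q Γ) (w : List (Sym Γ)),
    2 ≤ w.length → (∃ (x : Sym Γ) (r : List (Sym Γ)), x ≠ .star ∧
      w = List.replicate p .star ++ x :: r) →
    ∃ n j, 1 ≤ j ∧
      (((ustep M)^[n] (s, w)).1, er ((ustep M)^[n] (s, w)).2) = (astep M)^[j] (s, er w) := by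
  induction p using Nat.strong_induction_on with
  | _ p ih =>
    intro s w hw hx
    obtain ⟨x, r, hx, hwe⟩ := hx
    match w, hw with
    | a :: b :: w, _ =>
      by_cases hab : a ≠ .star ∨ b ≠ .star
      · obtain ⟨j, hj1, hj⟩ := ustep_sim M s a b w
        exact ⟨1, j, hj1 hab, hj⟩
      · push Not at hab
        obtain ⟨rfl, rfl⟩ := hab
        match p with
        | 0 =>
          simp only [List.replicate_zero, List.nil_append, List.cons.injEq] at hwe
          exact absurd hwe.1.symm hx
        | 1 =>
          simp only [List.replicate_one, List.cons_append, List.nil_append, List.cons.injEq] at hwe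
          exact absurd hwe.2.1.symm hx
        | p + 2 =>
          have hw' : w = List.replicate p .star ++ x :: r := by
            simpa [List.replicate_succ] using hwe
          obtain ⟨n, j, hj1, hj⟩ := ih p (by omega) (ustep M (s, .star :: .star :: w)).1
            (ustep M (s, .star :: .star :: w)).2 (ustep_length M _ _ (by simp))
            ⟨x, r ++ padded M s .star .star, hx, by
              show w ++ _ = _
              rw [hw']
              simp⟩
          refine ⟨n + 1, j, hj1, ?_⟩
          rw [Function.iterate_succ_apply]
          refine hj.trans ?_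
          simp only [ustep, er_cons_star, er_append, er_padded, aut_star, List.append_nil]

theorem ustep_progress' (M : TM0.Machine Γ Q) (s : St Q Γ) (w : List (Sym Γ)) (hw : 2 ≤ w.length)
    (hh : Sym.hash ∈ w) : ∃ n j, 1 ≤ j ∧
      (((ustep M)^[n] (s, w)).1, er ((ustep M)^[n] (s, w)).2) = (astep M)^[j] (s, er w) := by
  have key : ∀ w : List (Sym Γ), Sym.hash ∈ w → ∃ (p : ℕ) (x : Sym Γ) (r : List (Sym Γ)),
      x ≠ .star ∧ w = List.replicate p .star ++ x :: r := by
    intro w
    induction w with
    | nil => simp
    | cons y w ih =>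
      intro h
      by_cases hy : y = .star
      · subst hy
        obtain ⟨p, x, r, hx, hw⟩ := ih (by simpa using h)
        exact ⟨p + 1, x, r, hx, by rw [hw]; simp [List.replicate_succ]⟩
      · exact ⟨0, y, w, hy, rfl⟩
  obtain ⟨p, h⟩ := key w hh
  exact ustep_progress M p s w hw h

/-- Both machines halt simultaneously. -/
theorem ustep_iff (M : TM0.Machine Γ Q) (s : St Q Γ) (w : List (Sym Γ)) (hw : 2 ≤ w.length)
    (hh : Sym.hash ∈ w) (hs : Sym.star ∉ w) :
    (∃ n, ((ustep M)^[n] (s, w)).1 = .halt) ↔ ∃ n, ((astep M)^[n] (s, w)).1 = .halt := by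
  have hew : er w = w := er_of_no_star w hs
  constructor
  · rintro ⟨n, hn⟩
    obtain ⟨j, hj⟩ := ustep_iterate_sim M (s, w) hw n
    refine ⟨j, ?_⟩
    simp only [hew] at hj
    rw [← hj]
    exact hn
  · rintro ⟨N, hN⟩
    by_contra hne
    push Not at hne
    have key : ∀ k, ∃ n j, k ≤ j ∧
        (((ustep M)^[n] (s, w)).1, er ((ustep M)^[n] (s, w)).2) = (astep M)^[j] (s, w) := by
      intro k
      induction k with
      | zero => exact ⟨0, 0, le_refl _, by simp [hew]⟩
      | succ k ih =>
        obtain ⟨n, j, hkj, hj⟩ := ih
        have hl := ustep_iterate_length M (s, w) hw n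
        have hhash : Sym.hash ∈ ((ustep M)^[n] (s, w)).2 := by
          rcases astep_iterate_hash M (s, w) (Or.inr hh) j with h | h
          · rw [← hj] at h
            exact absurd h (hne n)
          · rw [← hj] at h
            exact (mem_er h).1
        obtain ⟨n', j', hj1, hj'⟩ := ustep_progress' M _ _ hl hhash
        refine ⟨n' + n, j' + j, by omega, ?_⟩
        rw [Function.iterate_add_apply, Function.iterate_add_apply, ← hj]
        exact hj'
    obtain ⟨n, j, hNj, hj⟩ := key N
    have := astep_halt_mono M (s, w) hNj hN
    rw [← hj] at this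
    exact hne n this

/-- The table of the uniform queue machine, transported to numbered states and letters. -/
noncomputable def table (M : TM0.Machine Γ Q) {m k : ℕ} (eS : St Q Γ ≃ Fin m)
    (eA : Sym Γ ≃ Fin k) (i : Fin m) (a b : Fin k) : Fin m × Fin k × Fin k × Fin k :=
  (eS (aut M (aut M (eS.symm i) (eA.symm a)).1 (eA.symm b)).1,
    eA ((padded M (eS.symm i) (eA.symm a) (eA.symm b)).getD 0 .star),
    eA ((padded M (eS.symm i) (eA.symm a) (eA.symm b)).getD 1 .star),
    eA ((padded M (eS.symm i) (eA.symm a) (eA.symm b)).getD 2 .star))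

theorem qstep_table (M : TM0.Machine Γ Q) {m k : ℕ} (eS : St Q Γ ≃ Fin m) (eA : Sym Γ ≃ Fin k)
    (c : St Q Γ × List (Sym Γ)) :
    qstep (table M eS eA) (eS c.1, c.2.map eA) =
      (eS (ustep M c).1, (ustep M c).2.map eA) := by
  obtain ⟨s, w⟩ := c
  match w with
  | [] => rfl
  | [a] => rfl
  | a :: b :: w =>
    simp only [List.map_cons, qstep, table, Equiv.symm_apply_apply, ustep, List.map_append]
    have h := padded_length M s a b
    generalize padded M s a b = l at h
    match l, h with
    | [x, y, z], _ => rfl

theorem qstep_table_iterate (M : TM0.Machine Γ Q) {m k : ℕ} (eS : St Q Γ ≃ Fin m)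
    (eA : Sym Γ ≃ Fin k) (c : St Q Γ × List (Sym Γ)) (n : ℕ) :
    (qstep (table M eS eA))^[n] (eS c.1, c.2.map eA) =
      (eS ((ustep M)^[n] c).1, ((ustep M)^[n] c).2.map eA) := by
  induction n with
  | zero => rfl
  | succ n ih => rw [Function.iterate_succ_apply', Function.iterate_succ_apply', ih, qstep_table]

/-- **A universal uniform queue machine.**  For every recursively enumerable predicate there are one
queue machine, popping two and appending three letters in each step, and a computable map to initial
queues, such that the predicate holds if and only if the machine reaches a halting state. -/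
theorem universal_queue {α : Type} [Primcodable α] (P : α → Prop) (hP : REPred P) :
    ∃ (m k : ℕ) (d : Fin m → Fin k → Fin k → Fin m × Fin k × Fin k × Fin k) (H : Fin m → Bool)
      (s0 : Fin m) (init : α → List (Fin k)), Computable init ∧ (∀ a, 2 ≤ (init a).length) ∧
        ∀ a, P a ↔ ∃ n, H ((qstep d)^[n] (s0, init a)).1 = true := by
  classical
  obtain ⟨Γ, Q, _, _, _, _, M, h0, c0, c1, hM⟩ := exists_tm0 P hP
  obtain ⟨m, ⟨eS⟩⟩ := Finite.exists_equiv_fin (St Q Γ)
  obtain ⟨k, ⟨eA⟩⟩ := Finite.exists_equiv_fin (Sym Γ)
  refine ⟨m, k, table M eS eA, fun i => decide (eS.symm i = .halt), eS (.B2 default),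
    fun a => [eA (.tape h0), eA .dollar, eA .hash] ++
      ((bitWord (eA (.tape c0)) (eA (.tape c1)) (Encodable.encode a)).reverse ++ [eA .bar]),
    ?_, fun a => by simp, fun a => ?_⟩
  · refine Primrec.to_comp ?_
    exact Primrec.list_append.comp (Primrec.const _) (Primrec.list_append.comp
      (Primrec.list_reverse.comp ((primrec_bitWord _ _).comp Primrec.encode)) (Primrec.const _))
  · rw [← hM a, tm0_iff]
    have hw : [eA (.tape h0), eA .dollar, eA .hash] ++
        ((bitWord (eA (.tape c0)) (eA (.tape c1)) (Encodable.encode a)).reverse ++ [eA .bar]) =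
          (startWord h0 (bitWord c0 c1 (Encodable.encode a)).reverse).map eA := by
      have : (fun b => cond b (eA (.tape c1)) (eA (.tape c0))) =
          (eA ∘ Sym.tape ∘ fun b => cond b c1 c0) := by
        funext b
        cases b <;> rfl
      simp only [startWord, bitWord, List.map_cons, List.map_append, List.map_reverse, List.map_map,
        List.map_nil, List.cons_append, List.nil_append, this]
    beta_reduce
    rw [hw, ← ustep_iff M _ _ (by simp [startWord]) (by simp [startWord]) (by simp [startWord])]
    have hq := fun n => qstep_table_iterate M eS eA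
      (.B2 default, startWord h0 (bitWord c0 c1 (Encodable.encode a)).reverse) n
    simp only at hq
    refine exists_congr fun n => ?_
    rw [hq n]
    simp

/-- Part EF of the plan. -/
theorem partEF : PartEF := fun _ _ P hP => universal_queue P hP

end Vale.Agent.P113.H554
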